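import Vale.Agent.P207.Q.ConstSym
import Vale.Agent.P207.Q.H545.Bianchi

/-!
# P207 (SPH, row G3): the algebra of the equality case

If `⟨(∇_v R)(x, v) v, x⟩ = 0` for all `v, x` then `∇R = 0` (second Bianchi identity and
polarisation).
-/

open scoped Manifold ContDiff ENNReal Topology
open Bundle MeasureTheory Set Filter

set_option maxSynthPendingDepth 3

noncomputable section

namespace Vale.Agent.P207.H596.SPH

open Vale.Agent.P255 Vale.Agent.P207 Vale.Agent.P207.D1 Vale.Agent.P207.Q
  Vale.Agent.P207.Q.H545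

/-- the pointwise algebra: `D v x y z w` has the symmetries of `⟨(∇_v R)(x, y) z, w⟩` -/
theorem pol {V : Type*} [AddCommGroup V] {D : V → V → V → V → V → ℝ}
    (add0 : ∀ v v' x y z w, D (v + v') x y z w = D v x y z w + D v' x y z w)
    (add1 : ∀ v x x' y z w, D v (x + x') y z w = D v x y z w + D v x' y z w)
    (add2 : ∀ v x y y' z w, D v x (y + y') z w = D v x y z w + D v x y' z w)
    (add3 : ∀ v x y z z' w, D v x y (z + z') w = D v x y z w + D v x y z' w)
    (add4 : ∀ v x y z w w', D v x y z (w + w') = D v x y z w + D v x y z w')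
    (anti : ∀ v x y z w, D v x y z w = - D v y x z w)
    (pair : ∀ v x y z w, D v x y z w = D v z w x y)
    (bian : ∀ v x y z w, D v x y z w + D v y z x w + D v z x y w = 0)
    (bian2 : ∀ v x y z w, D v x y z w + D x y v z w + D y v x z w = 0)
    (sec : ∀ v x, D v x v v x = 0) (v x y z w : V) : D v x y z w = 0 := by
  have skew : ∀ v x y z w, D v x y z w = - D v x y w z := by
    intro v x y z w
    rw [pair v x y z w, anti v z w x y, pair v w z x y]
  have n0 : ∀ v x y z w, D (-v) x y z w = - D v x y z w := by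
    intro v x y z w
    have h1 := add0 v (-v) x y z w
    have h2 := add0 0 0 x y z w
    rw [add_neg_cancel] at h1
    rw [add_zero] at h2
    linarith
  have n2 : ∀ v x y z w, D v x (-y) z w = - D v x y z w := by
    intro v x y z w
    have h1 := add2 v x y (-y) z w
    have h2 := add2 v x 0 0 z w
    rw [add_neg_cancel] at h1
    rw [add_zero] at h2
    linarith
  have n3 : ∀ v x y z w, D v x y (-z) w = - D v x y z w := by
    intro v x y z w
    have h1 := add3 v x y z (-z) w
    have h2 := add3 v x y 0 0 w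
    rw [add_neg_cancel] at h1
    rw [add_zero] at h2
    linarith
  -- `D b x b a x = D b x a b x`
  have sw : ∀ v x b a, D v x b a x = D v x a b x := by
    intro v x b a
    rw [pair v x b a x, anti v a x x b, skew v x a x b, neg_neg]
  -- polarisation
  have p1 : ∀ a b x, D a x b b x + 2 * D b x a b x = 0 := by
    intro a b x
    have e1 := sec (b + a) x
    have e2 := sec (b + -a) x
    rw [add0, add2, add2, add3, add3, add3, add3] at e1
    rw [add0, add2, add2, add3, add3, add3, add3] at e2
    simp only [n0, n2, n3] at e2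
    have f1 := sec a x
    have f2 := sec b x
    have f3 := sw b x b a
    have f4 := sw a x b a
    linarith
  have key : ∀ a b x, D a x b b x = 0 := by
    intro a b x
    have h1 := p1 a b x
    have h2 := p1 a x b
    have h3 := bian2 a x b b x
    -- `D b x a b x = D b b x x a`, `D x b a x b = D x x b b a`
    have e1 : D x b a x b = - D x b a b x := skew x b a x b
    have e2 : D b a x b x = - D b x a b x := anti b a x b x
    have e3 : D a b x x b = D a x b b x := by
      rw [anti a b x x b, skew a x b x b, neg_neg]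
    linarith
  exact CS.form_eq_zero (D := D v) (add1 v) (add2 v) (add3 v) (add4 v) (anti v) (pair v)
    (bian v) (fun x y => key v y x) x y z w

section Coord

variable {E : Type} [NormedAddCommGroup E] [NormedSpace ℝ E] [FiniteDimensional ℝ E]
variable {G : E → E →L[ℝ] E →L[ℝ] ℝ} {U : Set E}

theorem nab_anti (h : IsMetricOn G U) {u : E} (hu : u ∈ U) (v x y z w : E) :
    G u (nabR G u v x y z) w = - G u (nabR G u v y x z) w := by
  have hp : (u, ![v, x, y, z, w]).1 ∈ U := hu
  have e1 := fderiv_RR_hor h hp (0 : Fin 5) 1 2 3 4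
  have e2 := fderiv_RR_hor h hp (0 : Fin 5) 2 1 3 4
  have e3 : RR G (1 : Fin 5) 2 3 4 =ᶠ[𝓝 (u, ![v, x, y, z, w])] fun q => - RR G 2 1 3 4 q := by
    filter_upwards [continuous_fst.continuousAt.eventually (h.mem_nhds hu)] with q hq
    exact RR_anti h hq _ _ _ _
  have e4 := e3.fderiv_eq (𝕜 := ℝ)
  rw [fderiv_fun_neg] at e4
  have e5 := congrArg (fun L => L (Brk.hor G (0 : Fin 5) (u, ![v, x, y, z, w]))) e4
  simp only [neg_apply] at e5
  rw [e1, e2] at e5
  exact e5

theorem nab_pair (h : IsMetricOn G U) {u : E} (hu : u ∈ U) (v x y z w : E) :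
    G u (nabR G u v x y z) w = G u (nabR G u v z w x) y := by
  have hp : (u, ![v, x, y, z, w]).1 ∈ U := hu
  have e1 := fderiv_RR_hor h hp (0 : Fin 5) 1 2 3 4
  have e2 := fderiv_RR_hor h hp (0 : Fin 5) 3 4 1 2
  have e3 : RR G (1 : Fin 5) 2 3 4 =ᶠ[𝓝 (u, ![v, x, y, z, w])] RR G 3 4 1 2 := by
    filter_upwards [continuous_fst.continuousAt.eventually (h.mem_nhds hu)] with q hq
    exact RR_pair h hq _ _ _ _
  have e4 := e3.fderiv_eq (𝕜 := ℝ)
  have e5 := congrArg (fun L => L (Brk.hor G (0 : Fin 5) (u, ![v, x, y, z, w]))) e4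
  rw [e1, e2] at e5
  exact e5

theorem nab_bian (h : IsMetricOn G U) {u : E} (hu : u ∈ U) (v x y z w : E) :
    G u (nabR G u v x y z) w + G u (nabR G u v y z x) w + G u (nabR G u v z x y) w = 0 := by
  have hp : (u, ![v, x, y, z, w]).1 ∈ U := hu
  have e1 := fderiv_RR_hor h hp (0 : Fin 5) 1 2 3 4
  have e2 := fderiv_RR_hor h hp (0 : Fin 5) 2 3 1 4
  have e2' := fderiv_RR_hor h hp (0 : Fin 5) 3 1 2 4
  have e3 : (fun q => RR G (1 : Fin 5) 2 3 4 q + RR G 2 3 1 4 q + RR G 3 1 2 4 q)
      =ᶠ[𝓝 (u, ![v, x, y, z, w])] fun _ => 0 := by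
    filter_upwards [continuous_fst.continuousAt.eventually (h.mem_nhds hu)] with q hq
    exact RR_bianchi1 h hq _ _ _ _
  have hd : ∀ i j k l : Fin 5, DifferentiableAt ℝ (RR G i j k l) (u, ![v, x, y, z, w]) :=
    fun i j k l => (contDiffAt_RR h hp i j k l).differentiableAt (by simp)
  have e4 := e3.fderiv_eq (𝕜 := ℝ)
  rw [fderiv_fun_add ((hd _ _ _ _).fun_add (hd _ _ _ _)) (hd _ _ _ _),
    fderiv_fun_add (hd _ _ _ _) (hd _ _ _ _)] at e4
  have e5 := congrArg (fun L => L (Brk.hor G (0 : Fin 5) (u, ![v, x, y, z, w]))) e4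
  simp only [add_apply, fderiv_fun_const, zero_apply, Pi.zero_apply] at e5
  rw [e1, e2, e2'] at e5
  exact e5

/-- **[POL]**: sectional version -/
theorem locSymOn_of_sec (h : IsMetricOn G U)
    (hs : ∀ u ∈ U, ∀ v x, G u (nabR G u v x v v) x = 0) : LocSymOn G U := by
  intro u hu w x y z
  have hz : nabR G u w x y z = 0 := by
    apply h.ext_of hu
    intro q
    rw [map_zero, zero_apply]
    refine pol (D := fun v x y z w => G u (nabR G u v x y z) w) ?_ ?_ ?_ ?_ ?_
      (nab_anti h hu) (nab_pair h hu) (nab_bian h hu) ?_ (hs u hu) w x y z q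
    · intro v v' x y z w
      simp only [nabR, map_add, map_sub, add_apply, sub_apply]
      ring
    · intro v x x' y z w
      simp only [nabR, map_add, map_sub, add_apply, sub_apply]
      ring
    · intro v x y y' z w
      simp only [nabR, map_add, map_sub, add_apply, sub_apply]
      ring
    · intro v x y z z' w
      simp only [nabR, map_add, map_sub, add_apply, sub_apply]
      ring
    · intro v x y z w w'
      simp only [map_add]
    · intro v x y z w
      have e := congrArg (fun q => G u q w) (nabR_bianchi h hu v x y z)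
      simpa only [map_add, add_apply, map_zero, zero_apply] using e
  unfold nabR at hz
  rw [← sub_eq_zero, ← hz]
  abel

end Coord

end Vale.Agent.P207.H596.SPH
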