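import Vale.Agent.P207.H596.SPH.Alg
import Vale.Agent.P207.H747.Fr

/-!
# P207 (SPH, row G3): `K` is constant along the frame flow if and only if `∇R = 0`
-/

open scoped Manifold ContDiff ENNReal Topology
open Bundle MeasureTheory Set Filter

set_option maxSynthPendingDepth 3

noncomputable section

namespace Vale.Agent.P207.H596.SPH

open Vale.Agent.P255 (RMetric coefIn Gam Riem IsGeo Metric trans coefL chris chrisB IsMetricOn)
open Vale.Agent.P207 Vale.Agent.P207.D1 Vale.Agent.P207.Q Vale.Agent.P207.Q.H892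
  Vale.Agent.P207.Q.H545 Vale.Agent.P207.Q.H130

section Gen

variable {n : ℕ} {M : Type} [TopologicalSpace M] [ChartedSpace (EV n) M]
  [IsManifold 𝓘(ℝ, EV n) ∞ M] {g : RMetric (EV n) M}

/-- the derivative of the curvature components along the horizontal flows -/
theorem hasDerivAt_Rf [NeZero n] [T2Space M] {k : Fin n} {Φ : ℝ → Fr g → Fr g}
    (h : IsHorFlow g (Pi.single k 1) Φ) (f : Fr g) (i j l q : Fin n) {a : M}
    (ha : f.pt ∈ (chartAt (EV n) a).source) :
    HasDerivAt (fun t => Rf g (Φ t f) i j l q)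
      ((mt g).coef a (chF a f.1).1 (nabR ((mt g).coef a) (chF a f.1).1 ((chF a f.1).2 k)
        ((chF a f.1).2 i) ((chF a f.1).2 j) ((chF a f.1).2 l)) ((chF a f.1).2 q)) 0 := by
  have h0 : Φ 0 f = f := h.zero f
  have hs : (Φ 0 f).pt ∈ (chartAt (EV n) a).source := by rw [h0]; exact ha
  have htg : (chF a (Φ 0 f).1).1 ∈ (chartAt (EV n) a).target :=
    (chartAt (EV n) a).map_source hs
  have h1 := h.eqn f hs
  have h2 : HasFDerivAt (RR ((mt g).coef a) i j l q)
      (fderiv ℝ (RR ((mt g).coef a) i j l q) (chF a (Φ 0 f).1)) (chF a (Φ 0 f).1) :=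
    ((contDiffAt_RR ((mt g).isMetricOn a) htg i j l q).differentiableAt (by simp)).hasFDerivAt
  have h3 := h2.comp_hasDerivAt 0 h1
  rw [hF_single, fderiv_RR_hor ((mt g).isMetricOn a) htg] at h3
  rw [h0] at h3
  refine h3.congr_of_eventuallyEq ?_
  have h4 : ∀ᶠ r in 𝓝 (0 : ℝ), (Φ r f).pt ∈ (chartAt (EV n) a).source :=
    (Fr.continuous_pt.comp (h.continuous_left f)).continuousAt.preimage_mem_nhds
      ((chartAt (EV n) a).open_source.mem_nhds hs)
  filter_upwards [h4] with r hr
  exact Rf_eq (Φ r f) i j l q hr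

/-- if the sectional components are constant along the horizontal flow of the first frame
vector, then `⟨(∇_v R)(w, v) v, w⟩ = 0` for orthonormal `v, w` -/
theorem sec_unit [NeZero n] [T2Space M] {i₀ i₁ : Fin n} (hi : i₀ ≠ i₁) {Φ : ℝ → Fr g → Fr g}
    (h : IsHorFlow g (Pi.single i₀ 1) Φ)
    (hK : ∀ t f, Rf g (Φ t f) i₁ i₀ i₀ i₁ = Rf g f i₁ i₀ i₀ i₁) (a : M) {u : EV n}
    (hu : u ∈ (chartAt (EV n) a).target) {v w : EV n} (hv : (mt g).coef a u v v = 1)
    (hvw : (mt g).coef a u v w = 0) (hw : (mt g).coef a u w w = 1) :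
    (mt g).coef a u (nabR ((mt g).coef a) u v w v v) w = 0 := by
  have hx : (chartAt (EV n) a).symm u ∈ (chartAt (EV n) a).source :=
    (chartAt (EV n) a).map_target hu
  set x := (chartAt (EV n) a).symm u with hxdef
  have hux : chartAt (EV n) a x = u := (chartAt (EV n) a).right_inv hu
  set T : EV n → EV n := fun v => fderiv ℝ (trans (EV n) a x) u v with hT
  have hin : ∀ v w, innerB g x (T v) (T w) = coefIn g a u v w := by
    intro v w
    have h1 := inner_chFs (ι := Fin 2) g a (y := (u, ![v, w])) hu 0 1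
    exact h1
  obtain ⟨f, hf, hf0, hf1⟩ := exists_frame_pair (g := g) hi x (v := T v) (w := T w)
    (by rw [hin]; exact hv) (by rw [hin]; exact hvw) (by rw [hin]; exact hw)
  have hfs : f.pt ∈ (chartAt (EV n) a).source := by rw [hf]; exact hx
  have h2 := hasDerivAt_Rf h f i₁ i₀ i₀ i₁ hfs
  have h3 : HasDerivAt (fun t => Rf g (Φ t f) i₁ i₀ i₀ i₁) 0 0 := by
    simp only [hK]
    exact hasDerivAt_const _ _
  have h4 := h2.unique h3
  have hc1 : (chF a f.1).1 = u := by
    change chartAt (EV n) a f.pt = u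
    rw [hf]; exact hux
  have hc : ∀ i v, f.e i = T v → (chF a f.1).2 i = v := by
    intro i v hv
    change fderiv ℝ (trans (EV n) f.pt a) (chartAt (EV n) f.pt f.pt) (f.e i) = v
    rw [hv, hf, hT]
    have := fderiv_trans_forth a hx v
    rw [hux] at this
    exact this
  rw [hc1, hc i₀ v hf0, hc i₁ w hf1] at h4
  exact h4

/-- from orthonormal pairs to all pairs -/
theorem sec_all {G : EV n → EV n →L[ℝ] EV n →L[ℝ] ℝ} {U : Set (EV n)} (h : IsMetricOn G U)
    {u : EV n} (hu : u ∈ U)
    (hc : ∀ v w, G u v v = 1 → G u v w = 0 → G u w w = 1 → G u (nabR G u v w v v) w = 0)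
    (v w : EV n) : G u (nabR G u v w v v) w = 0 := by
  have hs := h.symm u hu
  by_cases hv : v = 0
  · subst hv
    simp [nabR]
  have hvp := h.pos u hu v hv
  set s := Real.sqrt (G u v v) with hsdef
  have hs0 : 0 < s := Real.sqrt_pos.2 hvp
  have hs2 : s * s = G u v v := Real.mul_self_sqrt hvp.le
  set c := G u v w / G u v v with hcdef
  set w' := w - c • v with hw'
  have hvw' : G u v w' = 0 := by
    simp only [hw', map_sub, map_smul, smul_eq_mul, hcdef]
    field_simp
    ring
  have hdecomp : w = w' + c • v := by simp [hw']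
  -- linearity
  have l1 : ∀ a b c' d e, G u (nabR G u a (b + c') d e) = G u (nabR G u a b d e) +
      G u (nabR G u a c' d e) := by
    intro a b c' d e
    ext q
    simp only [nabR, map_add, map_sub, add_apply, sub_apply]
    ring
  have l2 : ∀ (r : ℝ) a b d e, G u (nabR G u a (r • b) d e) = r • G u (nabR G u a b d e) := by
    intro r a b d e
    ext q
    simp only [nabR, map_add, map_sub, map_smul, add_apply, sub_apply, smul_apply, smul_eq_mul]
    ring
  have l3 : ∀ (r : ℝ) b, G u (nabR G u (r • v) b (r • v) (r • v)) =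
      (r * r * r) • G u (nabR G u v b v v) := by
    intro r b
    ext q
    simp only [nabR, map_add, map_sub, map_smul, add_apply, sub_apply, smul_apply, smul_eq_mul]
    ring
  have self : ∀ x y q, G u (nabR G u x y y q) = 0 := by
    intro x y q
    ext w
    have e := nab_anti h hu x y y q w
    rw [zero_apply]
    linarith
  have e1 : G u (nabR G u v w' v v) v = 0 := by
    have e := nab_pair h hu v w' v v v
    rw [e, self]
    rfl
  have hcurv : G u (nabR G u v w v v) w = G u (nabR G u v w' v v) w' := by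
    conv_lhs => rw [hdecomp]
    rw [l1, l2, self, smul_zero, add_zero, map_add, map_smul, e1, smul_zero, add_zero]
  rw [hcurv]
  by_cases hw0 : w' = 0
  · rw [hw0, map_zero]
  have hwp := h.pos u hu w' hw0
  set r := Real.sqrt (G u w' w') with hrdef
  have hr0 : 0 < r := Real.sqrt_pos.2 hwp
  have hr2 : r * r = G u w' w' := Real.mul_self_sqrt hwp.le
  have e := hc (s⁻¹ • v) (r⁻¹ • w') ?_ ?_ ?_
  · rw [l3, l2] at e
    simp only [map_smul, smul_apply, smul_eq_mul] at e
    have h3 : s⁻¹ * s⁻¹ * s⁻¹ ≠ 0 := by positivity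
    have h4 : r⁻¹ ≠ 0 := by positivity
    rcases mul_eq_zero.1 e with h5 | h5
    · first | exact absurd h5 h3 | exact absurd h5 h4
    · rcases mul_eq_zero.1 h5 with h6 | h6
      · first | exact absurd h6 h3 | exact absurd h6 h4
      · rcases mul_eq_zero.1 h6 with h7 | h7
        · first | exact absurd h7 h3 | exact absurd h7 h4
        · exact h7
  · simp only [map_smul, smul_apply, smul_eq_mul]
    rw [← hs2]
    field_simp
  · simp only [map_smul, smul_apply, smul_eq_mul, hvw']
    ring
  · simp only [map_smul, smul_apply, smul_eq_mul]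
    rw [← hr2]
    field_simp

/-- **[PAR] + [POL]**: if the sectional components are constant along the frame flow the metric
is locally symmetric -/
theorem locSymmetric_of_flow [NeZero n] [T2Space M] {i₀ i₁ : Fin n} (hi : i₀ ≠ i₁) {Φ : ℝ → Fr g → Fr g}
    (h : IsHorFlow g (Pi.single i₀ 1) Φ)
    (hK : ∀ t f, Rf g (Φ t f) i₁ i₀ i₀ i₁ = Rf g f i₁ i₀ i₀ i₁) : LocSymmetric g := by
  apply CS.locSymmetric_of_locSymOn
  intro a
  apply locSymOn_of_sec ((mt g).isMetricOn a)
  intro u hu v x
  exact sec_all ((mt g).isMetricOn a) hu (fun v w h1 h2 h3 => sec_unit hi h hK a hu h1 h2 h3) v x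

end Gen

section K

variable {m : ℕ} {M : Type} [TopologicalSpace M] [ChartedSpace (EV (m + 1)) M]
  [IsManifold 𝓘(ℝ, EV (m + 1)) ∞ M] {g : RMetric (EV (m + 1)) M} [T2Space M]
  {Φ : ℝ → Fr g → Fr g}

/-- **row G3**: the curvature matrix is constant along the frame flow if and only if the metric
is locally symmetric -/
theorem km_const_iff (hm : 0 < m) (h : IsHorFlow g (Pi.single 0 1) Φ) :
    (∀ t f, Km g (Φ t f) = Km g f) ↔ LocSymmetric g := by
  constructor
  · intro hK
    refine locSymmetric_of_flow (i₀ := 0) (i₁ := (⟨0, hm⟩ : Fin m).succ)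
      (Fin.succ_ne_zero _).symm h fun t f => ?_
    have h1 := congrFun (congrFun (hK t f) ⟨0, hm⟩) ⟨0, hm⟩
    exact neg_injective h1
  · intro hL t f
    ext i j
    change -Rf g (Φ t f) i.succ 0 0 j.succ = -Rf g f i.succ 0 0 j.succ
    rw [H747.Rf_flow hL h]

end K

end Vale.Agent.P207.H596.SPH
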